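import Vale.Agent.P092.QT.H565.PosC
import Vale.Agent.P092.H978.Glue1

/-!
P092 (helper565), project Q, end of [Q-C2] and [Q-C3]: the case of equality of the form `q x`.
-/

set_option linter.all false

open scoped InnerProductSpace Topology ENNReal NNReal
open Filter ContinuousLinearMap MeasureTheory
open Vale.Agent.P092.H160
open Vale.Agent.P092.QT.H156.Sm
open Vale.Agent.P092.QT.H650

namespace Vale.Agent.P092.QT.H565


open Vale.Agent.P092.QT.H715.Q Vale.Agent.P092.QT.H720 Vale.Agent.P092.QT.H796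
open Vale.Agent.P092.H100.QPsi
open Vale.Agent.P092.H242.ThC

section cs

variable {X G G' K : Type} [Group X] [Countable X] [Group G] [Group G']
  [TopologicalSpace G] [TopologicalSpace G'] [IsTopologicalGroup G] [IsTopologicalGroup G']
  [MeasurableSpace G] [BorelSpace G] [SecondCountableTopology G]
  [MeasurableSpace G'] [BorelSpace G'] [SecondCountableTopology G']
  [NormedAddCommGroup K] [InnerProductSpace ℂ K] [CompleteSpace K]
  {ρ : X →* (K →L[ℂ] K)} {ω ω' : K} {ι : X →* G} {ι' : X →* G'}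
  {μ : Measure G} {μ' : Measure G'} [SFinite μ] [SFinite μ']
  {b : G → K →L[ℂ] K} {x : G' → K →L[ℂ] K}

/-- The case of equality in Cauchy-Schwarz for `q x b b`. -/
theorem comm_of_eq [μ.IsMulLeftInvariant] [μ'.IsMulLeftInvariant] [μ.IsOpenPosMeasure]
    [μ'.IsOpenPosMeasure] (h : TRep ρ ω) (hb : Fd ι ρ b) (hx : Fd ι' ρ x)
    (hx2 : L2 ω μ' x) (hb2 : nsq ω μ b ≠ ∞) (hi : Iso μ b (nsq ω μ b))
    (hi' : Iso μ (fun y => adjoint (b y)) (nsq ω μ b))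
    (hq : (q ω μ μ' x b b).re = (nsq ω μ' x).toReal * (nsq ω μ b).toReal) (y : G) (u : G') :
    b y * x u = x u * b y := by
  have l1 := H100Q.l2_xc (μ := μ) h hb hx hi' hb2 hx2
  have l2 := H100Q.l2_bx (μ := μ) hb.continuous hx.continuous hi hb2 hx2
  have f1 := H100Q.fd_xc (ι := ι) (ι' := ι') hb hx
  have f2 := H100Q.fd_bx (ι := ι) (ι' := ι') hb hx
  have n1 := H100Q.nsq_xc (μ := μ) (μ' := μ') h hb hx hi'
  have n2 := H100Q.nsq_bx (ω := ω) (μ := μ) (μ' := μ') hb.continuous hx.continuous hi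
  have e := H978.eq_of_cs (μ := μ.prod μ') (f1.continuous_apply ω) (f2.continuous_apply ω) l1 l2
    (A := (nsq ω μ' x).toReal * (nsq ω μ b).toReal)
    (by rw [integral_sq l1, n1, ENNReal.toReal_mul, mul_comm])
    (by rw [integral_sq l2, n2, ENNReal.toReal_mul, mul_comm]) hq.ge
  have h3 := field_eq_zero h (f2.sub f1) fun z => by
    rw [sub_apply, sub_eq_zero]
    exact (congrFun e z).symm
  have h4 := congrFun h3 (y, u)
  exact sub_eq_zero.1 h4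

end cs

variable {Γ X Y G G' H K : Type} [Group Γ] [Group X] [Group Y] [Group G] [Group G'] [Group H]
  [Countable X] [Countable Y]
  [TopologicalSpace G] [TopologicalSpace H] [IsTopologicalGroup G] [IsTopologicalGroup H]
  [TopologicalSpace G'] [IsTopologicalGroup G']
  [MeasurableSpace G] [BorelSpace G] [SecondCountableTopology G]
  [MeasurableSpace G'] [BorelSpace G'] [SecondCountableTopology G']
  [MeasurableSpace H] [BorelSpace H] [SecondCountableTopology H]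
  [NormedAddCommGroup K] [InnerProductSpace ℂ K] [CompleteSpace K]
  {V W : Γ →* (K →L[ℂ] K)} {f : X →* Γ} {ρ : X →* (K →L[ℂ] K)} {f' : Y →* Γ}
  {ρ' : Y →* (K →L[ℂ] K)} {ω ω' : K} {ι' : X →* G'}
  {p : Γ →* G} {κ : Γ →* H} {x : G' → K →L[ℂ] K}
  {μ : Measure G} {μ' : Measure G'} {ν : Measure H}
  [SFinite μ] [SFinite μ'] [μ.IsMulLeftInvariant] [μ'.IsMulLeftInvariant]
  [μ.IsMulRightInvariant] [ν.IsMulLeftInvariant]

theorem avg_prod (h1 : F1 (p.comp f) κ ρ V ω μ) {a : G → K →L[ℂ] K}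
    (ha : Smo (p.comp f) κ ρ V ω μ a) {ξ η : G × G' → K} (hξ : MemLp ξ 2 (μ.prod μ'))
    (hη : MemLp η 2 (μ.prod μ')) :
    ∫ w, ∫ z, ⟪a (z.1 * w) (ξ z), a (z.1 * w) (η z)⟫_ℂ ∂(μ.prod μ') ∂μ =
      ip ω μ a a * ∫ z, ⟪ξ z, η z⟫_ℂ ∂(μ.prod μ') := by
  have hc : Continuous fun q : G × (G × G') => a (q.2.1 * q.1) :=
    ha.toFd.continuous.comp ((continuous_fst.comp continuous_snd).mul continuous_fst)
  exact (avg (τ := μ) (μ := μ.prod μ') (Φ := fun w z => a (z.1 * w))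
    (Ψ := fun w z => a (z.1 * w)) (k := ip ω μ a a) hc.stronglyMeasurable hc.stronglyMeasurable
    (nsq_lt_top (μ := μ) ha.l2).ne (nsq_lt_top (μ := μ) ha.l2).ne
    (fun z ζ => (lint_rt_pt h1 ha z.1 ζ).le) (fun z ζ => (lint_rt_pt h1 ha z.1 ζ).le)
    (fun z ζ η => int_rt_pt h1 ha ha z.1 ζ η) hξ hη).2

theorem q_rt_entry (hR : TRep ρ ω) (h1 : F1 (p.comp f) κ ρ V ω μ) {a : G → K →L[ℂ] K}
    (ha : Smo (p.comp f) κ ρ V ω μ a) {b : G → K →L[ℂ] K}
    (hb : Smo (p.comp f) κ ρ V ω μ b) (hx : Fd ι' ρ x) (hx2 : L2 ω μ' x) :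
    q ω μ μ' x (fun t => adjoint (a t) * a t) (fun t => adjoint (b t) * b t) =
      ∫ z, ⟪b z.1 ((x z.2 * adjoint (a z.1)) ω), b z.1 ((x z.2 * adjoint (a z.1)) ω)⟫_ℂ
        ∂(μ.prod μ') := by
  have e3 := q_entry (μ' := μ') (y := fun t => adjoint (a t)) (y' := fun t => adjoint (a t))
    hR h1 hb hb hx hx2 (ha.toFd.adj hR) (ha.toFd.adj hR)
  simp only [adjoint_adjoint] at e3
  rw [e3]
  unfold ip
  refine integral_congr_ae (Eventually.of_forall fun z => ?_)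
  simp only [fP, fQ, mul_ap]

theorem iso_aa (h1 : F1 (p.comp f) κ ρ V ω μ) {a : G → K →L[ℂ] K}
    (ha : Smo (p.comp f) κ ρ V ω μ a) : Iso μ (fun y => adjoint (adjoint (a y))) (nsq ω μ a) := by
  have h2 : (fun y => adjoint (adjoint (a y))) = a := funext fun y => adjoint_adjoint _
  rw [h2]
  exact H100Q.iso_of_F1 μ h1 ha

theorem l2_xa (hR : TRep ρ ω) (h1 : F1 (p.comp f) κ ρ V ω μ) {a : G → K →L[ℂ] K}
    (ha : Smo (p.comp f) κ ρ V ω μ a) (hx : Fd ι' ρ x) (hx2 : L2 ω μ' x) :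
    L2 ω (μ.prod μ') (fun z : G × G' => x z.2 * adjoint (a z.1)) :=
  H100Q.l2_xc (B := nsq ω μ a) (c := fun y => adjoint (a y)) hR (ha.toFd.adj hR) hx
    (iso_aa h1 ha) (nsq_lt_top ha.l2).ne hx2

theorem nsq_xa (hR : TRep ρ ω) (h1 : F1 (p.comp f) κ ρ V ω μ) {a : G → K →L[ℂ] K}
    (ha : Smo (p.comp f) κ ρ V ω μ a) (hx : Fd ι' ρ x) :
    nsq ω (μ.prod μ') (fun z : G × G' => x z.2 * adjoint (a z.1)) =
      nsq ω μ a * nsq ω μ' x :=
  H100Q.nsq_xc (c := fun y => adjoint (a y)) hR (ha.toFd.adj hR) hx (iso_aa h1 ha)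

theorem int_q_rt (hR : TRep ρ ω) (h1 : F1 (p.comp f) κ ρ V ω μ) {a : G → K →L[ℂ] K}
    (ha : Smo (p.comp f) κ ρ V ω μ a) (ha2 : ∀ w, Smo (p.comp f) κ ρ V ω μ fun t => a (t * w))
    (hx : Fd ι' ρ x) (hx2 : L2 ω μ' x) :
    ∫ w, q ω μ μ' x (fun t => adjoint (a t) * a t)
      (fun t => adjoint (a (t * w)) * a (t * w)) ∂μ =
      ((nsq ω μ a).toReal : ℂ) * (((nsq ω μ a).toReal : ℂ) * ((nsq ω μ' x).toReal : ℂ)) := by
  have lx := l2_xa (μ := μ) hR h1 ha hx hx2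
  have e5 := ip_self lx
  rw [nsq_xa (μ := μ) hR h1 ha hx, ENNReal.toReal_mul, Complex.ofReal_mul] at e5
  have e9 : ip ω μ a a = ((nsq ω μ a).toReal : ℂ) := ip_self ha.l2
  have e4 := avg_prod (μ' := μ') h1 ha (ξ := fun z => (x z.2 * adjoint (a z.1)) ω)
    (η := fun z => (x z.2 * adjoint (a z.1)) ω) lx lx
  rw [← e5, ← e9]
  refine Eq.trans ?_ e4
  exact integral_congr_ae (Eventually.of_forall fun w => q_rt_entry hR h1 ha (ha2 w) hx hx2)

/-- The constant of a proportional form. -/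
theorem const_q (D : Dbl V W f ρ f' ρ' ω ω') (hκ : DenseRange κ) (hp : DenseRange p)
    (h1 : F1 (p.comp f) κ ρ V ω μ) (hne : ∃ a, jj D hκ p μ ν a ≠ 0)
    (hx : Fd ι' ρ x) (hx2 : L2 ω μ' x) {k : ℂ}
    (hq : ∀ c b : TA D hκ p μ ν, q ω μ μ' x (c : G → K →L[ℂ] K) (b : G → K →L[ℂ] K) =
      k * ip ω μ (c : G → K →L[ℂ] K) (b : G → K →L[ℂ] K)) :
    k = ((nsq ω μ' x).toReal : ℂ) := by
  obtain ⟨a, ha⟩ := hne
  have hR := D.fr.reg
  have hA := ha_jj D hκ p μ ν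
  have e1 : ∀ w : G, ⟪jj D hκ p μ ν (star a * a), jj D hκ p μ ν
      (star (rT D hκ hp μ ν w a) * rT D hκ hp μ ν w a)⟫_ℂ =
      ⟪jj D hκ p μ ν (rT D hκ hp μ ν w a * star a),
        jj D hκ p μ ν (rT D hκ hp μ ν w a * star a)⟫_ℂ := fun w => by
    rw [hA.right, hA.left, mul_assoc]
  have e6 := (itgG D hκ hp μ ν h1).eq a a (star a) (star a)
  have e7 : ∫ w, q ω μ μ' x (fun t => adjoint (a.1 t) * a.1 t)
      (fun t => adjoint (a.1 (t * w)) * a.1 (t * w)) ∂μ =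
      k * (⟪jj D hκ p μ ν a, jj D hκ p μ ν a⟫_ℂ *
        ⟪jj D hκ p μ ν (star a), jj D hκ p μ ν (star a)⟫_ℂ) := by
    rw [← e6, ← integral_const_mul]
    refine integral_congr_ae (Eventually.of_forall fun w => ?_)
    simp only
    rw [← e1, inner_jj]
    exact hq (star a * a) (star (rT D hκ hp μ ν w a) * rT D hκ hp μ ν w a)
  have e9 : ⟪jj D hκ p μ ν a, jj D hκ p μ ν a⟫_ℂ = ((nsq ω μ a.1).toReal : ℂ) := by
    rw [inner_jj]
    exact ip_self a.2.smo.l2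
  rw [hA.tr, int_q_rt hR h1 a.2.smo (fun w => (TwS.rt D hκ hp a.2 w).smo) hx hx2, e9] at e7
  have h0 : ((nsq ω μ a.1).toReal : ℂ) ≠ 0 := by
    rw [← e9]
    exact inner_self_ne_zero.2 ha
  have e10 : ((nsq ω μ a.1).toReal : ℂ) * ((nsq ω μ a.1).toReal : ℂ) ≠ 0 := mul_ne_zero h0 h0
  refine mul_right_cancel₀ e10 ?_
  rw [← e7]
  ring

/-- A proportional form gives commuting fields. -/
theorem comm_of_const [μ.IsOpenPosMeasure] [μ'.IsOpenPosMeasure] (D : Dbl V W f ρ f' ρ' ω ω')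
    (hκ : DenseRange κ) (hp : DenseRange p) (h1 : F1 (p.comp f) κ ρ V ω μ)
    (hx : Fd ι' ρ x) (hx2 : L2 ω μ' x) {k : ℂ}
    (hq : ∀ c b : TA D hκ p μ ν, q ω μ μ' x (c : G → K →L[ℂ] K) (b : G → K →L[ℂ] K) =
      k * ip ω μ (c : G → K →L[ℂ] K) (b : G → K →L[ℂ] K))
    {b : G → K →L[ℂ] K} (hb : TwS V f ρ ω ω' p κ μ ν b) (y : G) (u : G') :
    b y * x u = x u * b y := by
  have hR := D.fr.reg
  by_cases hb0 : b = 0
  · rw [hb0]; simp
  have hne : jj D hκ p μ ν ⟨b, hb⟩ ≠ 0 := fun h0 => by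
    apply hb0
    have h2 : ip ω μ b b = 0 := by
      rw [← inner_jj D hκ p μ ν ⟨b, hb⟩ ⟨b, hb⟩, h0, inner_zero_left]
    rw [ip_self hb.smo.l2] at h2
    have h3 : (nsq ω μ b).toReal = 0 := by exact_mod_cast h2
    have h4 : nsq ω μ b = 0 := ((ENNReal.toReal_eq_zero_iff _).1 h3).resolve_right
      (nsq_lt_top hb.smo.l2).ne
    refine field_eq_zero hR hb.smo.toFd fun z => ?_
    have h5 : (fun z => b z ω) =ᵐ[μ] fun _ => 0 := by
      have h6 := (lintegral_eq_zero_iff' ((hb.smo.toFd.continuous_apply ω).aestronglyMeasurable.enorm.pow_const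
        2)).1 h4
      filter_upwards [h6] with z hz
      simpa using hz
    exact congrFun ((Continuous.ae_eq_iff_eq μ (hb.smo.toFd.continuous_apply ω)
      continuous_const).1 h5) z
  have hk := const_q D hκ hp h1 ⟨_, hne⟩ hx hx2 hq
  refine comm_of_eq (μ := μ) (μ' := μ') hR hb.smo.toFd hx hx2 (nsq_lt_top hb.smo.l2).ne
    (H100Q.iso_of_F1 μ h1 hb.smo) (H100Q.iso_adj μ h1 hb.smo D.fr) ?_ y u
  have h2 := hq ⟨b, hb⟩ ⟨b, hb⟩
  rw [hk] at h2
  have h3 : ip ω μ b b = ((nsq ω μ b).toReal : ℂ) := ip_self hb.smo.l2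
  change q ω μ μ' x b b = _ * ip ω μ b b at h2
  rw [h2, h3, ← Complex.ofReal_mul, Complex.ofReal_re]

end Vale.Agent.P092.QT.H565
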