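import Vale.Agent.P092.QT.H720.Avg
import Vale.Agent.P092.QT.H156.FO
import Vale.Agent.P092.QT.H796.ProdF
import Vale.Agent.P092.H100.QForm

/-!
P092 (helper565), project Q, block [Q-PSI] (D), (E): complete positivity of the form
`q x c b = ∫ ⟪x c ω, b x ω⟫` over `G × G'` (fields `b`, `c` over `G`, a field `x` over `G'`) and the
integral over the source group.
-/

set_option linter.all false

open scoped InnerProductSpace Topology ENNReal
open Filter ContinuousLinearMap MeasureTheory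
open Vale.Agent.P092.H160
open Vale.Agent.P092.QT.H156.Sm
open Vale.Agent.P092.QT.H650

namespace Vale.Agent.P092.QT.H565


open Vale.Agent.P092.QT.H715.Q Vale.Agent.P092.QT.H720 Vale.Agent.P092.QT.H796
open Vale.Agent.P092.H100.QPsi

variable {Γ X Y G G' H K : Type} [Group Γ] [Group X] [Group Y] [Group G] [Group G'] [Group H]
  [Countable X] [Countable Y]
  [TopologicalSpace G] [TopologicalSpace H] [IsTopologicalGroup G] [IsTopologicalGroup H]
  [TopologicalSpace G'] [IsTopologicalGroup G']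
  [MeasurableSpace G] [BorelSpace G] [SecondCountableTopology G]
  [MeasurableSpace G'] [BorelSpace G'] [SecondCountableTopology G']
  [MeasurableSpace H] [BorelSpace H] [SecondCountableTopology H]
  [NormedAddCommGroup K] [InnerProductSpace ℂ K] [CompleteSpace K]
  {V W : Γ →* (K →L[ℂ] K)} {f : X →* Γ} {ρ : X →* (K →L[ℂ] K)} {f' : Y →* Γ}
  {ρ' : Y →* (K →L[ℂ] K)} {ω ω' : K} {ι : X →* G} {ι' : X →* G'}
  {p : Γ →* G} {κ : Γ →* H} {a a' y y' : G → K →L[ℂ] K} {x : G' → K →L[ℂ] K}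
  {μ : Measure G} {μ' : Measure G'} {ν : Measure H}

/-- the field `z ↦ a z.1 * x z.2` -/
def fQ (a : G → K →L[ℂ] K) (x : G' → K →L[ℂ] K) (z : G × G') : K →L[ℂ] K := a z.1 * x z.2

/-- the field `z ↦ a z.1 * x z.2 * y z.1` -/
def fP (a : G → K →L[ℂ] K) (x : G' → K →L[ℂ] K) (y : G → K →L[ℂ] K) (z : G × G') : K →L[ℂ] K :=
  fQ a x z * y z.1

section fields

variable [SFinite μ] [SFinite μ'] [μ.IsMulLeftInvariant] [μ'.IsMulLeftInvariant]

omit [Countable X] [SFinite μ] [SFinite μ'] [μ.IsMulLeftInvariant] [μ'.IsMulLeftInvariant] in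
theorem fd_fQ (ha : Fd ι ρ a) (hx : Fd ι' ρ x) : Fd (ι.prod ι') ρ (fQ a x) :=
  (fd_fst ι' ha).mul (fd_snd ι hx)

omit [Countable X] [SFinite μ] [SFinite μ'] [μ.IsMulLeftInvariant] [μ'.IsMulLeftInvariant] in
theorem fd_fP (ha : Fd ι ρ a) (hx : Fd ι' ρ x) (hy : Fd ι ρ y) :
    Fd (ι.prod ι') ρ (fP a x y) :=
  (fd_fQ ha hx).mul (fd_fst ι' hy)

theorem l2_fQ (hF : F1 ι κ ρ V ω μ) (ha : Smo ι κ ρ V ω μ a) (hx : Fd ι' ρ x)
    (hx2 : L2 ω μ' x) : L2 ω (μ.prod μ') (fQ a x) :=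
  l2_ab (A := nsq ω μ a) hx.continuous ha.toFd.continuous (fun ζ => hF.lint ha ζ)
    (nsq_lt_top ha.l2).ne hx2

theorem l2_fP (h : TRep ρ ω) (hF : F1 ι κ ρ V ω μ) (ha : Smo ι κ ρ V ω μ a) (hx : Fd ι' ρ x)
    (hx2 : L2 ω μ' x) (hy : Fd ι ρ y) : L2 ω (μ.prod μ') (fP a x y) :=
  L2.mul_right h (fd_fQ ha.toFd hx) (fd_fst ι' hy) (l2_fQ hF ha hx hx2)

/-- **(D)** one entry of the positive form -/
theorem q_entry (h : TRep ρ ω) (hF : F1 ι κ ρ V ω μ) (ha : Smo ι κ ρ V ω μ a)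
    (ha' : Smo ι κ ρ V ω μ a') (hx : Fd ι' ρ x) (hx2 : L2 ω μ' x) (hy : Fd ι ρ y)
    (hy' : Fd ι ρ y') :
    q ω μ μ' x (fun t => y t * adjoint (y' t)) (fun t => adjoint (a t) * a' t) =
      ip ω (μ.prod μ') (fP a x y) (fP a' x y') := by
  have e1 := ip_mul_right (μ := μ.prod μ') (c := fun z : G × G' => adjoint (y' z.1)) h
    (fd_fP ha.toFd hx hy) (fd_fQ ha'.toFd hx) ((fd_fst ι' hy').adj h)
    (l2_fP h hF ha hx hx2 hy) (l2_fQ hF ha' hx hx2)
  simp only [adjoint_adjoint] at e1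
  change _ = ip ω (μ.prod μ') (fP a x y) (fun z => fQ a' x z * y' z.1)
  rw [← e1]
  unfold q ip
  refine integral_congr_ae (Eventually.of_forall fun z => ?_)
  simp only [fP, fQ, mul_ap]
  rw [adjoint_inner_right]

/-- **(D)** the positive form is an integral of squares -/
theorem q_sum (h : TRep ρ ω) (hF : F1 ι κ ρ V ω μ) {J : Type*} (s : Finset J)
    {a y : J → G → K →L[ℂ] K} (ha : ∀ i, Smo ι κ ρ V ω μ (a i)) (hx : Fd ι' ρ x)
    (hx2 : L2 ω μ' x) (hy : ∀ i, Fd ι ρ (y i)) :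
    ∑ i ∈ s, ∑ k ∈ s, q ω μ μ' x (fun t => y i t * adjoint (y k t))
      (fun t => adjoint (a i t) * a k t) =
      ((∫ z, ‖∑ i ∈ s, fP (a i) x (y i) z ω‖ ^ 2 ∂(μ.prod μ') : ℝ) : ℂ) := by
  simp_rw [fun i k => q_entry h hF (ha i) (ha k) hx hx2 (hy i) (hy k)]
  unfold ip
  have hL : ∀ i, MemLp (fun z => fP (a i) x (y i) z ω) 2 (μ.prod μ') := fun i =>
    l2_fP h hF (ha i) hx hx2 (hy i)
  rw [← integral_complex_ofReal]
  have e2 : ∀ z, ((‖∑ i ∈ s, fP (a i) x (y i) z ω‖ ^ 2 : ℝ) : ℂ) =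
      ∑ i ∈ s, ∑ k ∈ s, ⟪fP (a i) x (y i) z ω, fP (a k) x (y k) z ω⟫_ℂ := fun z => by
    have e3 := inner_self_eq_norm_sq_to_K (𝕜 := ℂ) (∑ i ∈ s, fP (a i) x (y i) z ω)
    rw [sum_inner] at e3
    simp_rw [inner_sum] at e3
    rw [e3]
    push_cast
    rfl
  simp_rw [e2]
  rw [integral_finset_sum _ fun i _ => integrable_finset_sum _ fun k _ =>
    integrable_inner_of_memLp (hL i) (hL k)]
  refine Finset.sum_congr rfl fun i _ => ?_
  rw [integral_finset_sum _ fun k _ => integrable_inner_of_memLp (hL i) (hL k)]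

end fields

section src

variable [SFinite μ] [SFinite μ'] [μ.IsMulLeftInvariant] [μ'.IsMulLeftInvariant]
  [μ.IsMulRightInvariant] [SFinite ν] [ν.IsMulLeftInvariant]

/-- the inner product of `fQ a x` and `fQ a' x` -/
theorem ip_fQ (hF : F1 ι κ ρ V ω μ) (ha : Smo ι κ ρ V ω μ a)
    (ha' : Smo ι κ ρ V ω μ a') (hx : Fd ι' ρ x) (hx2 : L2 ω μ' x) :
    ip ω (μ.prod μ') (fQ a x) (fQ a' x) = ip ω μ a a' * ((nsq ω μ' x).toReal : ℂ) := by
  have hi := integrable_inner_of_memLp (l2_fQ (μ := μ) hF ha hx hx2) (l2_fQ hF ha' hx hx2)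
  unfold ip at *
  rw [integral_prod_symm _ hi]
  have e1 : ∀ u, ∫ t, ⟪fQ a x (t, u) ω, fQ a' x (t, u) ω⟫_ℂ ∂μ =
      ip ω μ a a' * ⟪x u ω, x u ω⟫_ℂ := fun u => (hF a a' ha ha' (x u ω) (x u ω)).2
  simp_rw [e1]
  rw [integral_const_mul]
  congr 1
  exact ip_self hx2

/-- **(E)** the integral of one entry over the source group -/
theorem int_entry (D : Dbl V W f ρ f' ρ' ω ω') (hκ : DenseRange κ) (hp : DenseRange p)
    (h1 : F1 (p.comp f) κ ρ V ω μ) (h2 : F1 (κ.comp f') p ρ' W ω' ν)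
    (ha : Smo (p.comp f) κ ρ V ω μ a) (ha' : Smo (p.comp f) κ ρ V ω μ a')
    (hy : TwS V f ρ ω ω' p κ μ ν y) (hy' : TwS V f ρ ω ω' p κ μ ν y')
    (hx : Fd ι' ρ x) (hx2 : L2 ω μ' x) :
    Integrable (fun h => ip ω (μ.prod μ') (fP a x (al κ V h y)) (fP a' x (al κ V h y'))) ν ∧
    ∫ h, ip ω (μ.prod μ') (fP a x (al κ V h y)) (fP a' x (al κ V h y')) ∂ν =
      ip ω' ν (fl κ V y) (fl κ V y') * (ip ω μ a a' * ((nsq ω μ' x).toReal : ℂ)) := by
  have hR := D.fr.reg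
  have hyA := hy.adj D hκ
  have hyA' := hy'.adj D hκ
  have fQa := fd_fQ (ι' := ι') ha.toFd hx
  have fQa' := fd_fQ (ι' := ι') ha'.toFd hx
  have lQ := l2_fQ (μ := μ) h1 ha hx hx2
  have lQ' := l2_fQ (μ := μ) h1 ha' hx hx2
  have lQs := L2.adj hR fQa lQ
  have lQs' := L2.adj hR fQa' lQ'
  have key : ∀ h, ip ω (μ.prod μ') (fP a x (al κ V h y)) (fP a' x (al κ V h y')) =
      ∫ z, ⟪al κ V h (fun t => adjoint (y' t)) z.1 (adjoint (fQ a' x z) ω),
        al κ V h (fun t => adjoint (y t)) z.1 (adjoint (fQ a x z) ω)⟫_ℂ ∂(μ.prod μ') := fun h => by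
    have fy := fd_al D.fr hκ hy.smo.toFd hy.smo.acont h
    have fy' := fd_al D.fr hκ hy'.smo.toFd hy'.smo.acont h
    rw [← ip_adj hR (fd_fP ha.toFd hx fy) (fd_fP ha'.toFd hx fy')
      (l2_fP hR h1 ha hx hx2 fy) (l2_fP hR h1 ha' hx hx2 fy')]
    unfold ip
    refine integral_congr_ae (Eventually.of_forall fun z => ?_)
    simp only [fP]
    rw [al_adj D.fr hκ hy'.smo.acont, al_adj D.fr hκ hy.smo.acont, adj_mul, adj_mul, mul_ap, mul_ap]
  simp_rw [key]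
  have hT := avg (τ := ν) (μ := μ.prod μ')
    (Φ := fun h z => al κ V h (fun t => adjoint (y' t)) z.1)
    (Ψ := fun h z => al κ V h (fun t => adjoint (y t)) z.1)
    (k := ip ω' ν (fl κ V fun t => adjoint (y' t)) (fl κ V fun t => adjoint (y t)))
    ((continuous_al_uncurry D.fr hκ hyA'.smo.toFd hyA'.smo.acont).comp
      (continuous_fst.prodMk (continuous_fst.comp continuous_snd))).stronglyMeasurable
    ((continuous_al_uncurry D.fr hκ hyA.smo.toFd hyA.smo.acont).comp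
      (continuous_fst.prodMk (continuous_fst.comp continuous_snd))).stronglyMeasurable
    (nsq_lt_top (μ := ν) (hyA'.smo' D hκ).l2).ne (nsq_lt_top (μ := ν) (hyA.smo' D hκ).l2).ne
    (fun z ζ => (lint_orb D hκ hp h2 hyA' z.1 ζ).le)
    (fun z ζ => (lint_orb D hκ hp h2 hyA z.1 ζ).le)
    (fun z ζ η => (orb_pt D hκ hp h2 hyA' hyA z.1 ζ η).2) lQs' lQs
  refine ⟨hT.1, hT.2.trans ?_⟩
  have e1 : ip ω' ν (fl κ V fun t => adjoint (y' t)) (fl κ V fun t => adjoint (y t)) =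
      ip ω' ν (fl κ V y) (fl κ V y') := by
    rw [← ip_adj D.fr'.reg (hy.smo' D hκ).toFd (hy'.smo' D hκ).toFd (hy.smo' D hκ).l2
      (hy'.smo' D hκ).l2]
    unfold ip
    refine integral_congr_ae (Eventually.of_forall fun h => ?_)
    simp only [fl]
    rw [al_adj D.fr hκ hy'.smo.acont, al_adj D.fr hκ hy.smo.acont]
  have e2 : ∫ z, ⟪adjoint (fQ a' x z) ω, adjoint (fQ a x z) ω⟫_ℂ ∂(μ.prod μ') =
      ip ω (μ.prod μ') (fQ a x) (fQ a' x) := ip_adj hR fQa fQa' lQ lQ'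
  rw [e1, e2, ip_fQ h1 ha ha' hx hx2]

/-- **(E)** the integral of the positive form over the source group -/
theorem int_q_sum (D : Dbl V W f ρ f' ρ' ω ω') (hκ : DenseRange κ) (hp : DenseRange p)
    (h1 : F1 (p.comp f) κ ρ V ω μ) (h2 : F1 (κ.comp f') p ρ' W ω' ν) {J : Type*} (s : Finset J)
    {a y : J → G → K →L[ℂ] K} (ha : ∀ i, Smo (p.comp f) κ ρ V ω μ (a i))
    (hy : ∀ i, TwS V f ρ ω ω' p κ μ ν (y i)) (hx : Fd ι' ρ x) (hx2 : L2 ω μ' x) :
    Integrable (fun h => ∫ z, ‖∑ i ∈ s, fP (a i) x (al κ V h (y i)) z ω‖ ^ 2 ∂(μ.prod μ')) ν ∧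
    ((∫ h, ∫ z, ‖∑ i ∈ s, fP (a i) x (al κ V h (y i)) z ω‖ ^ 2 ∂(μ.prod μ') ∂ν : ℝ) : ℂ) =
      ((nsq ω μ' x).toReal : ℂ) * ∑ i ∈ s, ∑ k ∈ s,
        ip ω μ (a i) (a k) * ip ω' ν (fl κ V (y i)) (fl κ V (y k)) := by
  have hR := D.fr.reg
  have key : ∀ h, ((∫ z, ‖∑ i ∈ s, fP (a i) x (al κ V h (y i)) z ω‖ ^ 2 ∂(μ.prod μ') : ℝ) : ℂ) =
      ∑ i ∈ s, ∑ k ∈ s, ip ω (μ.prod μ') (fP (a i) x (al κ V h (y i)))
        (fP (a k) x (al κ V h (y k))) := fun h => by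
    have fy := fun i => fd_al D.fr hκ (hy i).smo.toFd (hy i).smo.acont h
    rw [← q_sum hR h1 s ha hx hx2 fy]
    simp_rw [fun i k => q_entry hR h1 (ha i) (ha k) hx hx2 (fy i) (fy k)]
  have hI := fun i k => int_entry D hκ hp h1 h2 (ha i) (ha k) (hy i) (hy k) hx hx2
  have hint : Integrable (fun h => ((∫ z, ‖∑ i ∈ s, fP (a i) x (al κ V h (y i)) z ω‖ ^ 2
      ∂(μ.prod μ') : ℝ) : ℂ)) ν := by
    simp_rw [key]
    exact integrable_finset_sum _ fun i _ => integrable_finset_sum _ fun k _ => (hI i k).1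
  refine ⟨?_, ?_⟩
  · have h3 := hint.re
    refine h3.congr (Eventually.of_forall fun h => ?_)
    simp
  · rw [← integral_complex_ofReal]
    simp_rw [key]
    rw [integral_finset_sum _ fun i _ => integrable_finset_sum _ fun k _ => (hI i k).1,
      Finset.mul_sum]
    refine Finset.sum_congr rfl fun i _ => ?_
    rw [integral_finset_sum _ fun k _ => (hI i k).1, Finset.mul_sum]
    refine Finset.sum_congr rfl fun k _ => ?_
    rw [(hI i k).2]
    ring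

end src

end Vale.Agent.P092.QT.H565
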